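import Vale.Agent.N099X.Final

open MeasureTheory ProbabilityTheory Set Filter Topology Metric

namespace Vale.Agent.Results.P099.A0Currents

open Vale.Agent.N099X

/-- Irrational triangles: (1) the billiard flow is mixing iff the velocity autocorrelation of every
disc tends to zero; (2) it is mixing along a filter of times iff the mean velocity in every disc of
every initial set tends to zero; (3) a trajectory that equidistributes in the table equidistributes
in phase space. (4) A triangle is irrational iff every invariant probability with uniform position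
is `mu`. -/
theorem result (P : Fin 3 → ℂ) (hP : AffineIndependent ℝ P) :
    (Irr P →
      (∀ Φ, Moves P (mu P) Φ →
        (Mix (mu P) Φ atTop ↔ ∀ x r, closedBall x r ⊆ Q P → Tendsto (fun t =>
          ∫ p in {p | p.1 ∈ closedBall x r ∧ (Φ t p).1 ∈ closedBall x r},
            inner ℝ (vel p.2) (vel (Φ t p).2) ∂mu P) atTop (𝓝 0)) ∧
        ∀ l : Filter ℝ, Mix (mu P) Φ l ↔ ∀ x r, closedBall x r ⊆ Q P → ∀ B, MeasurableSet B →
          Tendsto (fun t => ∫ p in B ∩ {p | (Φ t p).1 ∈ closedBall x r}, vel (Φ t p).2 ∂mu P) l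
            (𝓝 0)) ∧
      ∀ γ, IsOrbit P γ →
        (∀ f : ℂ → ℝ, Continuous f → Tendsto (fun t : ℝ => t⁻¹ * ∫ s in (0 : ℝ)..t, f (γ s).1)
          atTop (𝓝 (⨍ x in Q P, f x))) →
        ∀ F : Phase → ℝ, Continuous F → Tendsto (fun t : ℝ => t⁻¹ * ∫ s in (0 : ℝ)..t, F (γ s))
          atTop (𝓝 (∫ p, F p ∂mu P))) ∧
    (Irr P ↔ ∀ l : Measure Phase, IsProbabilityMeasure l → (∃ Φ, Preserves l Φ ∧ Moves P l Φ) →
      l.map Prod.fst = cond volume (Q P) → l = mu P) := by
  let T : Vale.Agent.P099.Triangle := ⟨P, hP⟩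
  exact ⟨fun hT => ⟨fun Φ hΦ => ⟨mix_autocorr (T := T) hT hΦ, mix_currents (T := T) hT hΦ⟩,
    fun γ hγ => orbit_equi (T := T) hT hγ⟩, law_iff T⟩

end Vale.Agent.Results.P099.A0Currents
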