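import Vale.Agent.N099.Grp

open MeasureTheory Set

namespace Vale.Agent.Results.P099.A0Extensions

open Vale.Agent.P099

/-- A billiard particle with a state in a measure space `(S, n)`, changed by the involution `σ i`
at side `i`: (1) the flow exists and is unique; (2) for a probability `n` and EVERY triangle it is
ergodic iff weakly mixing iff the three wall maps of (direction, state) act ergodically, and the
functions invariant under its product with any flow are determined; (3) reflections of a circle of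
states; (4) group actions; (5) infinite surfaces tiled by mirror copies of the triangle. -/
theorem result :
    (∀ (T : Triangle) (S : Type) [MeasurableSpace S] (n : Measure S) [SFinite n]
      (σ : Fin 3 → S → S), WallMaps n σ → ∃ Ψ, T.IsSkewFlow n σ Ψ ∧ MPFlow (T.mu.prod n) Ψ ∧
        ∀ Φ, T.IsSkewFlow n σ Φ → ∀ t, ∀ᵐ p ∂T.mu.prod n, Φ t p = Ψ t p) ∧
    (∀ (T : Triangle) (S : Type) [MeasurableSpace S] (n : Measure S) [IsProbabilityMeasure n]
      (σ : Fin 3 → S → S), WallMaps n σ → ∀ Φ, T.IsSkewFlow n σ Φ →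
        (FlowErgodic (T.mu.prod n) Φ ↔ T.WallErgodic n σ) ∧
        (FlowWeakMixing (T.mu.prod n) Φ ↔ T.WallErgodic n σ) ∧
        ∀ (Ω : Type) [MeasurableSpace Ω] (m : Measure Ω) [IsProbabilityMeasure m]
          (Ψ : ℝ → Ω → Ω), MPFlow m Ψ → ∀ f : ((ℂ × ℂ) × S) × Ω → ℝ, Measurable f →
            ((∀ t, ∀ᵐ z ∂((T.mu.prod n).prod m), f (Φ t z.1, Ψ t z.2) = f z) ↔
              ∃ g : (ℂ × S) × Ω → ℝ, Measurable g ∧
                (∀ i, ∀ᵐ w ∂((nu.prod n).prod m), g ((T.refl i w.1.1, σ i w.1.2), w.2) = g w) ∧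
                (∀ t, ∀ᵐ w ∂((nu.prod n).prod m), g (w.1, Ψ t w.2) = g w) ∧
                ∀ᵐ z ∂((T.mu.prod n).prod m), f z = g ((z.1.1.2, z.1.2), z.2))) ∧
    (∀ (T : Triangle) (c : Fin 3 → ℂ), (∀ i, ‖c i‖ = 1) →
      WallMaps nu (fun i z => c i * starRingEnd ℂ z) ∧
      (T.WallErgodic nu (fun i z => c i * starRingEnd ℂ z) ↔
        ∀ k l : ℤ, (∀ i j, T.refl i 1 ^ k * c i ^ l = T.refl j 1 ^ k * c j ^ l) → k = 0 ∧ l = 0)) ∧
    (∀ (T : Triangle) (S : Type) [MeasurableSpace S] (n : Measure S) [IsProbabilityMeasure n]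
      (G : Type) [Group G] [MulAction G S] [MeasurableConstSMul G S] [SMulInvariantMeasure G S n]
      (g : Fin 3 → G) (H : Subgroup G), T.IsIrrational → (∀ i, g i * g i = 1) →
      H = Subgroup.closure {x | ∃ i j, x = g i * g j} → ErgodicSMul (⁅H, H⁆ : Subgroup G) S n →
      WallMaps n (fun i a => g i • a) ∧ T.WallErgodic n (fun i a => g i • a)) ∧
    ∀ (T : Triangle) (S : Type) [MeasurableSpace S] [MeasurableSingletonClass S] [Countable S]
      [Infinite S] (σ : Fin 3 → S → S), (∀ i a, σ i (σ i a) = a) →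
      (∀ E : Set S, E.Nonempty → (∀ i, ∀ a ∈ E, σ i a ∈ E) → E = univ) →
      WallMaps Measure.count σ ∧ ∀ Φ, T.IsSkewFlow Measure.count σ Φ → ∀ A, MeasurableSet A →
        (∀ t, (T.mu.prod Measure.count) (symmDiff (Φ t ⁻¹' A) A) = 0) →
        (T.mu.prod Measure.count) A = 0 ∨ (T.mu.prod Measure.count) A = ⊤ := by
  refine ⟨fun T S _ n _ σ hσ => ?_, fun T S _ n _ σ hσ Φ hΦ =>
    ⟨T.ergodic_iffK hσ hΦ, T.weakMixing_iffK hσ hΦ, fun Ω _ m _ Ψ hΨ f hf =>
      ⟨fun h => T.invariant_ofK hσ hΨ.pflow hΦ hf h, ?_⟩⟩,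
    fun T c hc => ⟨wallMaps_circ hc, fun h _ _ => T.of_wallErgodic_circ hc h,
      T.wallErgodic_circ_of hc⟩,
    fun T S _ n _ G _ _ _ _ g H hT hg hH hE =>
      ⟨wallMaps_smul hg, T.wallErgodic_of_commutator hT g hH hE⟩,
    fun T S _ _ _ _ σ h1 h2 => ⟨wallMaps_count ⟨σ, h1, h2⟩, fun Φ hΦ A hA h =>
      T.zero_or_top ⟨σ, h1, h2⟩ hΦ hA h⟩⟩
  · obtain ⟨Ψ, hΨ, hb, hu, -⟩ := T.exists_good_flowK hσ.invo n hσ.preserving
    exact ⟨Ψ, hb, hΨ.mpflow, hu⟩
  · rintro ⟨g, -, h1, h2, h3⟩ t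
    exact T.invariant_convK hσ hΨ.pflow hΦ h1 h2 h3 t

end Vale.Agent.Results.P099.A0Extensions
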